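import Crest.Agent.X212.Loc8.Ab
import Crest.Agent.X212.Cht98.Nk
import Crest.Agent.X212.Pj41.LinLim
import Crest.Agent.X212.Pj41.Nkg

/-!
# Row 212, AB-BRK (helper99): abelian points with broken cylindrical walls, the leaves

The end `b = false` has the times `(0, ∞)`, the end `b = true` the times `(-∞, 0)`;
`pm (!b) * s` is the depth.
-/

set_option autoImplicit false
set_option linter.unusedSectionVars false
noncomputable section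
open scoped Manifold ContDiff Topology InnerProductSpace
open MeasureTheory Function Filter Set
open Crest.Agent.R208.F (Ext)

namespace Crest.Agent.X212.Brk99
open An M Cyl58 Cyf70 Nd18 Pj41 Tmp64 G75
open Abel74 (RedOn)
open Loc8 (Rd oz Win RL)
open Num57 (isq)
open Dr59 (Cl ip Lat Cs)
open Line51 (Ln)
open Eqv71 (cj)

variable {κ lam : Type} [Fintype κ] [Fintype lam]

/-- the times of depth in `T` -/
def dp (Y : Type) (b : Bool) (T : Set ℝ) : Set (Y × ℝ) := {z | pm (!b) * z.2 ∈ T}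

/-- the ultrafilter of depths -/
def UU : Ultrafilter ℝ := Ultrafilter.of atTop

section neck
variable {Y : Mf 3} [CompactSpace Y.M] (D : YD Y.I Y.M κ lam)
  (c : Cfg (Y.M × ℝ) (Option κ) lam 0) (β : YC Y.M κ lam)

/-- a half neck: a reducible connection `W` on the module of `β` which is `c` at the depths
`(R - 1, R)`, `β` at the depths `≥ R + 1` and almost flat -/
structure HN (ξ : Y.M × ℝ → c.m.A) (η : Y.M → β.m.A) (e : ℝ) (b : Bool) (R γ : ℝ)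
    (W : (cy β).m.Cn) (v : Y.M × ℝ → CL c.m.V (cy β).m.V) : Prop where
  conn : (cy β).m.IsConn D.B D.G W
  red : RedOn D.Z (cy β).m W univ fun z => η z.1
  far : ∀ a, ∀ z ∈ dp Y.M b (Ici (R + 1)), W a z = β.W a z.1
  iso : Iso0 (IC Y.I) c.m (cy β).m (dp Y.M b (Ioo (R - 1) R)) v
  par : Par0 D.Z c.W W (dp Y.M b (Ioo (R - 1) R)) v
  cj : ∀ z ∈ dp Y.M b (Ioo (R - 1) R), cj (v z) (ξ z) = e • η z.1
  sml : ∀ z ∈ dp Y.M b (Ici R), ‖(cy β).m.Fg D.Z W z‖ ≤ γ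

end neck

variable (κ lam) in
/-- **(B) NECK** -/
def NeckStmt : Prop := ∀ (Y : Mf 3) [CompactSpace Y.M] [ConnectedSpace Y.M] (D : YD Y.I Y.M κ lam)
  (c : Cfg (Y.M × ℝ) (Option κ) lam 0) (β : YC Y.M κ lam) (ζ : Circle) (b : Bool) (ξ : Y.M × ℝ → c.m.A),
  D.OK → D.Adm β → (∀ z, (cy β).m.Fg D.Z (cy β).W z = 0) → AdmOn c D.B D.G (dp Y.M b (Ioi 0)) →
  RedOn D.Z c.m c.W (dp Y.M b (Ioi 0)) ξ → D.nk.Lim c β ζ (bif b then atBot else atTop) →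
  (∃ η : Y.M → β.m.A, RedOn D.Z (cy β).m (cy β).W univ fun z => η z.1) ∧
    ∀ η : Y.M → β.m.A, (RedOn D.Z (cy β).m (cy β).W univ fun z => η z.1) → ∃ e : ℝ, (e = 1 ∨ e = -1) ∧
      ∀ γ > 0, ∀ᶠ R in (UU : Filter ℝ), ∃ W v, HN D c β ξ η e b R γ W v

section geo
variable {Z Z' : Mf 4} {ι : Type} {Y : ι → Mf 3} [∀ a, CompactSpace (Y a).M]
  {D : ∀ a, YD (Y a).I (Y a).M κ lam} {B : Base Z.M (Option κ) lam} {G : Geo Z.I Z.M (Option κ) lam}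
  {B' : Base Z'.M (Option κ) lam} {G' : Geo Z'.I Z'.M (Option κ) lam} (K : ∀ a, Bool → Nk (D a) B G)

/-- the part of depth `< R` -/
def O0 (R : ℝ) : Set Z.M := {z | ∀ a b, pm (!b) * (K a b).tm z < R}

/-- pairs of ends; `s a` is the side of the end `false` -/
structure Fx (φ : Z.M → Z'.M) (s : ι → Set Z.M) : Prop where
  oe : IsOE Z.I Z'.I φ
  J : ∀ a b, (K a b).J = {t | 0 < pm (!b) * t}
  cl : ∀ a, IsClopen (s a)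
  sd : ∀ a b, ∀ z ∈ (K a b).ψ.target, z ∈ s a ↔ b = false
  ot : ∀ a a', a ≠ a' → ∀ b b', ∀ z ∈ (K a b).ψ.target, ∀ z' ∈ (K a b').ψ.target, z ∈ s a' ↔ z' ∈ s a'

/-- the ends are cut at the depth `R` and joined to necks of length `l a` -/
structure Gm (φ : Z.M → Z'.M) (R : ℝ) (K' : ∀ a, Nk (D a) B' G') (l : ι → ℝ) : Prop where
  rel : GRel B G B' G' φ (O0 K R)
  J : ∀ a, (K' a).J = Ioo 0 (l a)
  len : ∀ a, 2 * R + 4 ≤ l a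
  mt : ∀ a b y s, pm (!b) * s ∈ Ioo 0 R → φ ((K a b).ψ (y, s)) = (K' a).ψ (y, s + bif b then l a else 0)
  cov : ∀ z, z ∈ φ '' O0 K R ↔ ∀ a, (K' a).tm z ∉ Icc R (l a - R)
  dj : Pairwise fun a a' => Disjoint (K' a).ψ.target (K' a').ψ.target

end geo

variable [DecidableEq lam] {X : Mf 4} {A : Type} [Fintype A] {M : Mark X A κ}

/-- the ends of `Scene.Mtc` -/
def IsE {W : World M} {N : ML M lam} {Λ : Lns W N} {m c : M.Cl} {p : Prm A} {a : A}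
    (K : Bool → Nk (N.cy a).yd (Λ.B m c) (Λ.G m c p)) : Prop := ∀ b,
  (K b).p = (if b then none else some 0) ∧ (K b).q = (if b then some 0 else none) ∧
    ∀ y s, 0 < pm b * s → pm b * s < 1 → (K b).ψ (y, len 1 b s) = W.nj c a (y, s)

variable (κ lam) in
/-- **(C) GEO** -/
def GeoStmt : Prop := ∀ (X : Mf 4) (A : Type) [Fintype A] (M : Mark X A κ) (W : World M) (N : ML M lam)
  (Λ : Lns W N) (Bs : Bas X univ) (bs : LBas X univ) (m c d : M.Cl) (u : ℝ) (t : A → ℝ) (S : Set A)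
  (K : ∀ a : S, Bool → Nk (N.cy a).yd (Λ.B m c) (Λ.G m c (u, t))), W.Nrm → Λ.Nrm → Std W Bs → LStd Λ bs →
  t ∈ M.sys.Par → Sys.inf t = c.1 → S ⊆ c.1 → d.1 = c.1 \ S → (∀ a ∈ S, ¬M.pin a ∧ a ∈ m.1) →
  (∀ a, IsE (K a)) → (∀ a b, (K a b).ψ.target = W.φ c '' (M.bn a).slab {s | pm b * s ∈ Ioo 0 1}) ∧
    Fx K (W.up d c) (fun a => {z | Cht98.hZ W.toCaps c a z < 0}) ∧ ∀ R > 0, ∃ t', t' ∈ M.sys.Par ∧
      Sys.inf t' = d.1 ∧ (∀ a ∉ S, t' a = t a) ∧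
      ∃ (K' : ∀ a : S, Nk (N.cy a).yd (Λ.B m d) (Λ.G m d (u, t'))) (l : S → ℝ), Gm K (W.up d c) R K' l

variable (κ lam) in
/-- **(F) XI**: the reduction before gluing -/
def XiStmt : Prop := ∀ (X : Mf 4) (A : Type) [Fintype A] (M : Mark X A κ) (W : World M) (N : ML M lam)
  (Λ : Lns W N) (m c d : M.Cl) (p : Prm A) (π : Reg A) (O : Set X.M) (x₀ : X.M)
  (x : Cfg (W.Z c).M (Option κ) (lam ⊕ lam) 0), p ∈ M.O c.1 → d.1 = c.1 \ M.sys.inn π → M.Up d c →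
  M.sys.Piece d.1 π → IsOpen O → O ⊆ M.sys.U π →
  x₀ ∈ O ∩ ⋂ a ∈ c.1 ∩ M.sys.inn π, (M.sys.w a).sd true →
  Dfl49.Sur {x₀} (O ∩ ⋂ a ∈ c.1 ∩ M.sys.inn π, (M.sys.w a).sd true) → x.Adm (Λ.B m c) (Λ.G m c p) →
  (∀ ρ, M.sys.Piece c.1 ρ → M.sys.U ρ ⊆ M.sys.U π → Nd18.Lin (W.F m c p) x (W.pc c ρ) ∨
    ∀ z ∈ W.pc c ρ, x.m.Fg (W.F m c p) x.W z = 0) →
  (∀ ρ, M.sys.Piece c.1 ρ → M.sys.U ρ ⊆ M.sys.U π → ∀ a ∈ c.1, a ∈ M.sys.inn π →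
    M.sys.U ρ ⊆ (M.sys.w a).sd false →
    ∃ ξ, ParS (W.F m c p) x (W.pc c ρ) ξ ∧ ∀ z ∈ W.pc c ρ, ‖ξ z‖ = 4) →
  (⋃ ρ ∈ {ρ | M.sys.Piece c.1 ρ ∧ M.sys.U ρ ⊆ M.sys.U π}, W.pc c ρ) = W.up d c ⁻¹' W.pc d π ∧
    ∃ ξ, RedOn (W.F m c p) x.m x.W (W.up d c ⁻¹' oz W.toCaps d O) ξ

/-- `Loc8.Cls` with an error in the level -/
structure Cl2 (N : ML M lam) (π : Reg A) (fz : Set A) (O : Set X.M) (E0 : Set (X.M → Ext X.E))
    (η η' : ℝ) (w : X.M → Ext X.E) (k : ℝ) : Prop where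
  cl : Cl X.I 2 O w
  pos : 0 ≤ k
  chr : ∀ K a, IsCompact K → K ⊆ O → RL X.I K a → ∃ n : ℤ,
    ip X.I M.o (Ln.F X.I ⟨N.p, 0⟩ + w) a + ip X.I M.o a a = 2 * n * (2 * Real.pi) ^ 2
  long : ∀ e ∈ E0, ip X.I M.o w e ^ 2 ≤ η
  loc : ∀ ρ, Win M π fz O w ρ → ∀ (ι : Type) [Fintype ι] [DecidableEq ι] K (e : ι → X.M → Ext X.E) G,
    Lat X.I M.o (M.sys.U ρ) K e G →
      isq X.I M.o e G w w ≤ η ∧ -isq X.I M.o e G w w / (4 * (2 * Real.pi) ^ 2) - η ≤ k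
  lev : M.sys.U π ⊆ O → ∀ (ι : Type) [Fintype ι] [DecidableEq ι] K (e : ι → X.M → Ext X.E) G,
    Lat X.I M.o (M.sys.U π) K e G → |k + isq X.I M.o e G w w / (4 * (2 * Real.pi) ^ 2)| ≤ η'

variable (κ lam) in
/-- **(A) CORE+** (`fz`: frozen walls inside `π`) -/
def CoreStmt : Prop := ∀ (X : Mf 4) (A : Type) [Fintype A] (M : Mark X A κ) (N : ML M lam) (π : Reg A)
  (fz : Set A) (O : Set X.M) (E0 : Set (X.M → Ext X.E)) (η k₀ : ℝ), (∀ a ∈ Sys.bd π, M.pin a) →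
  (∀ a ∈ fz, ¬M.pin a) → IsOpen O → O ⊆ M.sys.U π → E0.Finite →
  (∀ e ∈ E0, ∃ a ∈ fz, (M.sys.w a).band ⊆ O ∧ Cs X.I 2 (M.sys.w a).band e) → 0 < η →
  ∃ ε : ℝ, 0 < ε ∧ ∃ T₀ < (1 : ℝ), ∀ (W : World M) (Λ : Lns W N) (m c : M.Cl) (p : Prm A),
    M.sys.Piece c.1 π → p.2 ∈ M.sys.Par → Sys.inf p.2 = c.1 → (∀ a ∈ fz, T₀ ≤ p.2 a) →
    IsCompact (W.pc c π) ∧
    ∀ x : Cfg (W.Z c).M (Option κ) (lam ⊕ lam) 0, x.Adm (Λ.B m c) (Λ.G m c p) →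
      (∃ ξ, Rd (Λ.G m c p).F x.m x.W (oz W.toCaps c O) ξ) →
      ∫ z in W.pc c π, ‖x.m.p2 (Λ.B m c) z (x.m.Fg (W.F m c p) x.W z)‖ ^ 2 ∂(W.F m c p).μ ≤
        ε ^ 2 * ∫ z in W.pc c π, ‖x.m.Fg (W.F m c p) x.W z‖ ^ 2 ∂(W.F m c p).μ + ε →
      ∀ k η' : ℝ, 0 ≤ k → |k - ∫ z in W.pc c π, x.m.kd (Λ.B m c) (W.F m c p) x.W z ∂(W.F m c p).μ| ≤ η' →
        η' ≤ ε → k₀ ≤ k ∨ ∃ w, Cl2 N π fz O E0 η η' w k

end Crest.Agent.X212.Brk99
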