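import Crest.Agent.X212.Brk99.Glue
import Crest.Agent.X212.Geo48.Main

/-!
# Row 212, AB-BRK (helper99): the class of an abelian point with broken cylindrical walls
-/

set_option autoImplicit false
set_option linter.unusedSectionVars false
noncomputable section
open scoped Manifold ContDiff Topology
open MeasureTheory Function Filter Set
open Crest.Agent.R208.F (Ext)

namespace Crest.Agent.X212.Brk99
open An M Cyl58 G75 Loc8
open Dr59 (Cs ip)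
open Dfl49 (Sur)

theorem ar {E H k E' H' k' p ε γ : ℝ} (p0 : 0 < p) (e : p * k = E - 2 * H) (e' : p * k' = E' - 2 * H')
    (h : H ≤ ε ^ 2 * E) (h1 : |E' - E| ≤ γ) (h2 : |k' - k| ≤ γ) (h3 : γ ≤ ε / (ε ^ 2 + 1 + p)) :
    H' ≤ ε ^ 2 * E' + ε := by
  rw [le_div_iff₀ (by positivity)] at h3
  have := (abs_nonneg _).trans h1
  rw [abs_le] at h1 h2
  nlinarith [mul_le_mul_of_nonneg_left h1.1 (sq_nonneg ε), mul_le_mul_of_nonneg_left h2.1 p0.le]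

variable {κ lam : Type} [Fintype κ] [Fintype lam] [DecidableEq lam] {Lm : LM κ lam} {S : Scene Lm} {i : S.L}
  {σ c₀ : Finset S.A} {π : Reg S.A} {O : Set S.X.M} {P : ℝ → Prop} {k₀ η : ℝ}

variable (S σ π O) in
/-- the bands of the cylindrical walls lie in `O`, sections extend over the outer part -/
def Out : Prop := ∀ T ⊆ ↑σ ∩ S.M.sys.inn π, (∀ a ∈ T, ¬S.M.pin a) → (∀ a ∈ T, (S.M.sys.w a).band ⊆ O) ∧
  ∃ x₀ ∈ O ∩ ⋂ a ∈ T, (S.M.sys.w a).sd true, Sur {x₀} (O ∩ ⋂ a ∈ T, (S.M.sys.w a).sd true)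

variable (hN : NeckStmt κ (lam ⊕ lam)) (hX : XiStmt κ lam) (hS : S.OK) (hσ : σ ∈ S.K i)
  (hπ : S.M.sys.Piece ↑c₀ π) (hb : ∀ a ∈ Sys.bd π, S.M.pin a) (hO : IsOpen O) (hs : O ⊆ S.M.sys.U π)
  (out : Out S σ π O)
include hN hX hS hσ hπ hb hO hs out

/-- **AB-BRK** -/
theorem ab_of {E0 : Set (S.X.M → Ext S.X.E)} (hE : E0.Finite)
    (hE' : ∀ e ∈ E0, ∃ a ∈ S.fz, (S.M.sys.w a).band ⊆ O ∧ Cs S.X.I 2 (S.M.sys.w a).band e) (hη : 0 < η)
    (h0 : ∀ k, k₀ ≤ k → P k)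
    (h : ∀ k, (∀ η' > 0, ∃ w, Loc8.Cl2 (S.N i) π ↑S.fz O E0 η η' w k) → P k) : S.Ab i σ c₀ π P := by
  obtain ⟨ε, h1, T₀, h2, h3⟩ := coreP (S.N i) (fz := ↑S.fz) hb (fun a ha => (hS.fz a ha).1) hO hs hE hE' hη k₀
  refine ⟨min ε (1 / 2), lt_min h1 one_half_pos, ((eventually_gt_nhds (max_lt h2 one_pos)).filter_mono
    nhdsWithin_le_nhds).mono fun T hT D m c u t e ht hi x Ad ⟨a1, a2, a3, a4, a5⟩ hH => ?_⟩
  have k := max_lt_iff.1 hT
  have hp : t ∈ S.M.sys.Par := ⟨fun a => (em (a ∈ σ)).elim (ht.1 a) fun h1 =>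
      (em (a ∈ S.fz)).elim (fun h2 => ⟨k.2.le.trans (ht.2.1 a h2).1, (ht.2.1 a h2).2⟩) fun h2 =>
        ⟨(ht.2.2 a h1 h2).ge, (ht.2.2 a h1 h2).trans_le zero_le_one⟩,
      (hS.cell i σ hσ).1.mono fun a ha => by_contra fun k' =>
        ha (ht.2.2 a (fun e => k' (.inl e)) fun e => k' (.inr e))⟩
  have n0 : ∀ a ∈ c.1 ∩ S.M.sys.inn π, ¬(S.M.pin a ∨ a ∈ S.fz) := fun a ha j =>
    hπ.not_inn a ((e a).2 ⟨ha.1, j⟩) ha.2
  obtain ⟨o1, x₀, o2, o3⟩ := out (c.1 ∩ S.M.sys.inn π) (fun a ha => ⟨by_contra fun j => zero_ne_one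
    ((ht.2.2 a j fun j => n0 a ha (.inr j)).symm.trans (hi ▸ ha.1 : a ∈ Sys.inf t)), ha.2⟩)
    fun a ha j => n0 a ha (.inl j)
  have up := Geo48.up_dc (c := c) (π := π) fun a ha j j' => n0 a ⟨ha, j'⟩ (.inl j)
  have pd := Geo48.piece_dc (c := c) hπ.toIsReg fun a ha => ((e a).1 (hπ.bd_subset ha)).1
  have pO := Geo48.mem_O hp hi u
  have hB := (D.Λ i).B_ok m c
  have hG := (D.Λ i).G_ok m pO
  choose K β ζ b1 b2 b3 using fun a : ↥(c.1 ∩ S.M.sys.inn π) => a2 a a.2.1 a.2.2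
  obtain ⟨g1, F, g2⟩ := Geo48.geo κ lam _ _ _ D.W (S.N i) (D.Λ i) D.B (D.b i) m c (Geo48.dc c π) u t _ K D.nrm
    (D.lnrm i) D.std (D.lstd i) hp hi inter_subset_left (Set.ext fun a => and_congr_right fun j =>
      not_congr (and_iff_right j).symm) (fun a ha => ⟨fun j => n0 a ha (.inl j), a4 a ha.1 fun j => n0 a ha (.inl j)⟩)
    fun a b => ⟨(b3 a b).1, (b3 a b).2.1, (b3 a b).2.2.1⟩
  obtain ⟨eu, ξ, r⟩ := hX _ _ _ D.W (S.N i) (D.Λ i) m c (Geo48.dc c π) (u, t) π O x₀ x pO rfl up pd hO hs o2 o3 Ad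
    (fun ρ j j' => a1 ρ ⟨j, j'⟩) fun ρ j j' => a5 ρ ⟨j, j'⟩
  replace eu : S.un D c π = _ := eu
  rw [eu] at a3 hH ⊢
  have cp := isCompact_pc D.W.toCaps pd hb
  have ek := kd_int hB hG Ad.conn a3 (a3.mono' (cont_p2 hB hG Ad.ok Ad.conn).aestronglyMeasurable
    (.of_forall fun z => (Real.norm_of_nonneg (sq_nonneg _)).trans_le
      (pow_le_pow_left₀ (norm_nonneg _) (Mp86.norm_p2 hB _ _ _) 2)))
  have n1 := integral_nonneg (μ := (D.W.F m c (u, t)).μ.restrict (D.W.up (Geo48.dc c π) c ⁻¹' D.W.pc _ π))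
    (f := fun z => ‖x.m.Fg (D.W.F m c (u, t)) x.W z‖ ^ 2) fun _ => sq_nonneg _
  have m1 := fun r hr => hH.trans (mul_le_mul_of_nonneg_right
    (pow_le_pow_left₀ (lt_min h1 one_half_pos).le (b := r) hr 2) n1)
  have : Nonempty (D.W.Z c).M := ⟨D.W.φ c x₀⟩
  have := Fintype.ofFinite ↥(c.1 ∩ S.M.sys.inn π)
  have gl := fun γ hγ => glue (γ := γ) hN F hB hG ((D.Λ i).B_ok m _) (fun a => ((S.N i).cy_ok a).yd) Ad b1 b2
    (fun a b => (b3 a b).2.2.2) isOpen_interior cp r (fun a b => g1 a b ▸ by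
      rintro _ ⟨_, ⟨q, hq, rfl⟩, rfl⟩
      have j : _ ∉ S.M.sys.cores c.1 := fun j => (hq.2.1.trans_eq (by rw [(j_mem_cores a.2.1).1 j, mul_zero])).false
      rw [mem_preimage, D.W.up_φ up j]
      exact img_oz _ hO (hs.trans (U_src _ pd)) ⟨_, o1 a a.2 ⟨q, rfl⟩, rfl⟩) a3 hγ
  refine (le_or_gt _ _).elim (h0 _) fun hk => h _ fun η' e' => ?_
  have p0 : 0 < 128 * Real.pi ^ 2 := by positivity
  obtain ⟨R, R0, y⟩ := gl _ (lt_min (lt_min e' h1) (div_pos h1 (add_pos (add_pos (pow_pos h1 2) one_pos) p0)))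
  obtain ⟨t', t1, t2, t3, K', l, g⟩ := g2 R R0
  have hG' := (D.Λ i).G_ok m (Geo48.mem_O t1 t2 u)
  obtain ⟨y, y1, y2, y3, y4⟩ := y _ K' l hG' g
  have ek' := kd_int ((D.Λ i).B_ok m _) hG' y1.conn (intOn_cp (cont_F2 ((D.Λ i).B_ok m _) hG' y1.ok y1.conn) cp)
    (intOn_cp (cont_p2 ((D.Λ i).B_ok m _) hG' y1.ok y1.conn) cp)
  refine ((h3 D.W (D.Λ i) m _ (u, t') pd t1 t2 (fun a ha => (k.1.le.trans (ht.2.1 a ha).1).trans_eq
    (t3 a fun j => n0 a j (.inr ha)).symm) y y1 y2 _ _ (nonneg_of_mul_nonneg_right ?_ p0)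
    ((abs_sub_comm _ _).trans_le (y4.trans (min_le_left _ _))) (min_le_right _ _) ?_).resolve_left hk.not_ge).imp
      fun w j => ⟨j.cl, j.pos, j.chr, j.long, j.loc, fun a ι _ _ K e G l => (j.lev a ι K e G l).trans (min_le_left _ _)⟩
  · exact le_of_le_of_eq (sub_nonneg.2 ((mul_le_mul_of_nonneg_left (m1 _ (min_le_right _ _)) zero_le_two).trans
      ((mul_assoc _ _ _).ge.trans (mul_le_of_le_one_left n1 (by norm_num))))) ek.symm
  · exact ar p0 ek ek' (m1 _ (min_le_left _ _)) y3 y4 (min_le_right _ _)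

/-- **an odd line on a frozen neck: no abelian points of bounded level** -/
theorem ab_huge {a : S.A} (ha : a ∈ S.fz) (hb' : (S.M.sys.w a).band ⊆ O) {K : Set S.X.M} (hK : IsCompact K)
    (hK' : K ⊆ (S.M.sys.w a).band) {f : S.X.M → Ext S.X.E} (hf : RL S.X.I K f) {n : ℤ} (hn : Odd n)
    (e : ip S.X.I S.M.o (S.cu i) f + ip S.X.I S.M.o f f = n * (2 * Real.pi) ^ 2) (k₀ : ℝ) :
    S.Ab i σ c₀ π (k₀ ≤ ·) := by
  have k := (hf.cs hK).mono hK'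
  refine ab_of hN hX hS hσ hπ hb hO hs out (finite_singleton f) (by rintro _ rfl; exact ⟨a, ha, hb', k⟩)
    (η := 1 / 2) (by norm_num) (fun _ h => h) fun _ h => False.elim ?_
  obtain ⟨w, h⟩ := h 1 one_pos
  obtain ⟨n', h1⟩ := h.chr K f hK (hK'.trans hb') hf
  have h2 := h.long f rfl
  rw [(k.mono hb').ip_add S.M.ori (((S.N i).ok.cl_F isOpen_univ).sm.mono (subset_univ _)) h.cl.sm] at h1
  have h3 : ip S.X.I S.M.o w f = ((2 * n' - n : ℤ) : ℝ) * (2 * Real.pi) ^ 2 := by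
    push_cast; linarith
  have h4 : (1 : ℝ) ≤ ((2 * n' - n : ℤ) : ℝ) ^ 2 := by
    exact_mod_cast (one_le_sq_iff_one_le_abs _).2 (Int.one_le_abs (by obtain ⟨j, rfl⟩ := hn; omega))
  have h5 : 1 ≤ ((2 * Real.pi) ^ 2) ^ 2 := one_le_pow₀ (one_le_pow₀ (by linarith [Real.pi_gt_three]))
  rw [h3, mul_pow] at h2
  nlinarith

end Crest.Agent.X212.Brk99
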