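import Crest.Agent.X212.Brk99.Tr

/-!
# Row 212, AB-BRK (helper99): the configuration on a long neck, signs
-/

set_option autoImplicit false
set_option linter.unusedSectionVars false
noncomputable section
open scoped Manifold ContDiff Topology InnerProductSpace
open MeasureTheory Function Filter Set

namespace Crest.Agent.X212.Brk99
open An M Cyl58 Cyf70 Nd18 Pj41 Tmp64
open Abel74 (RedOn)

variable {κ lam : Type} [Fintype κ] [Fintype lam]

/-- the shift to the end `b` -/
def ts {Y : Type} (l : ℝ) (b : Bool) (z : Y × ℝ) : Y × ℝ := (z.1, z.2 + -bif b then l else 0)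

/-- the nearer end -/
def bb (l s : ℝ) : Bool := decide (l / 2 ≤ s)

/-- the windows -/
def gw (γ R l s : ℝ) : ℝ :=
  (Icc R (R + 1)).indicator (fun _ => γ ^ 2) s + (Icc (l - R - 1) (l - R)).indicator (fun _ => γ ^ 2) s

theorem gw_nonneg (γ R l s : ℝ) : 0 ≤ gw γ R l s :=
  add_nonneg (indicator_nonneg (fun _ _ => sq_nonneg _) _) (indicator_nonneg (fun _ _ => sq_nonneg _) _)

theorem gw_int (γ R l : ℝ) : Integrable (gw γ R l) ∧ ∫ s, gw γ R l s = 2 * γ ^ 2 := by
  have i : ∀ a b : ℝ, Integrable ((Icc a b).indicator fun _ => γ ^ 2) := fun a b =>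
    (integrable_indicator_iff measurableSet_Icc).2 (integrableOn_const measure_Icc_lt_top.ne)
  refine ⟨(i _ _).add (i _ _), ?_⟩
  simp only [gw]
  rw [integral_add (i _ _) (i _ _), integral_indicator_const _ measurableSet_Icc,
    integral_indicator_const _ measurableSet_Icc, Real.volume_real_Icc, Real.volume_real_Icc]
  simp only [add_sub_cancel_left, sub_sub_cancel, zero_le_one, max_eq_left, one_smul]
  ring

theorem gw_off {γ R l s : ℝ} (hR : 0 < R) (hl : 2 * R + 4 ≤ l) (h : s ∉ Ioo 0 l) : gw γ R l s = 0 := by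
  rw [gw, indicator_of_notMem, indicator_of_notMem, add_zero] <;>
    exact fun k => h ⟨by linarith [k.1], by linarith [k.2]⟩

theorem bb_lt {R l s : ℝ} (hl : 2 * R + 4 ≤ l) :
    pm (!bb l s) * (s + -bif bb l s then l else 0) < l - R - 1 := by
  unfold bb
  by_cases h : l / 2 ≤ s <;> simp [h, pm] <;> linarith

theorem bb_eq {R l s : ℝ} {b : Bool} (hl : 2 * R + 4 ≤ l)
    (h : pm (!b) * (s + -bif b then l else 0) < R + 1) : bb l s = b := by
  unfold bb
  cases b <;> simp [pm] at h ⊢ <;> linarith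

section neck
variable {Y : Mf 3} [CompactSpace Y.M] {D : YD Y.I Y.M κ lam} {β : YC Y.M κ lam}

theorem gRel_ts (D : YD Y.I Y.M κ lam) (l : ℝ) (b : Bool) : GRel D.B D.G D.B D.G (ts l b) univ :=
  Glc56.gRel_sh D _

/-- two half necks joined -/
@[reducible] def nC (W : Bool → (cy β).m.Cn) (l : ℝ) : Cfg (Y.M × ℝ) (Option κ) lam 0 :=
  ⟨(cy β).m, fun a z => W (bb l z.2) a (ts l (bb l z.2) z), 0, 0⟩

variable {c : Bool → Cfg (Y.M × ℝ) (Option κ) lam 0} {ξ : ∀ b, Y.M × ℝ → (c b).m.A} {η : Y.M → β.m.A}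
  {e : Bool → ℝ} {R γ l : ℝ} {W : Bool → (cy β).m.Cn} {v : ∀ b, Y.M × ℝ → CL (c b).m.V (cy β).m.V}
  (h : ∀ b, HN D (c b) β (ξ b) η (e b) b R γ (W b) (v b)) (hl : 2 * R + 4 ≤ l)
include h hl

theorem nC_eq {b : Bool} {z : Y.M × ℝ} (k : pm (!b) * (ts l b z).2 < l - R - 1) (a : Option κ) :
    (nC W l).W a z = W b a (ts l b z) := by
  by_cases q : bb l z.2 = b
  · simp only [nC, q]
  have k' := bb_lt (s := z.2) hl
  refine ((h _).far a _ ?_).trans ((h b).far a (ts l b z) ?_).symm <;>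
    generalize bb l z.2 = b' at * <;> cases b <;> cases b' <;> simp [dp, ts, pm] at * <;> linarith

theorem nC_ev {z : Y.M × ℝ} (a : Option κ) :
    (nC W l).W a =ᶠ[𝓝 z] fun w => W (bb l z.2) a (ts l (bb l z.2) w) :=
  (ContinuousAt.eventually_lt (f := fun w : Y.M × ℝ => pm (!bb l z.2) * (w.2 + -bif bb l z.2 then l else 0))
    (by fun_prop) continuousAt_const (bb_lt hl)).mono fun _ k => nC_eq h hl k a

theorem nC_adm (hβ : D.Adm β) : (nC W l).Adm D.B D.G := by
  refine ⟨hβ.adm.ok, ConnOn.isConn (ConnOn.of_local fun z _ => ⟨_, bb_lt (s := z.2) hl, ConnOn.congr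
    (O := {w : Y.M × ℝ | pm (!bb l z.2) * (w.2 + -bif bb l z.2 then l else 0) < l - R - 1})
    (((gRel_ts D l (bb l z.2)).connOn_iff.2 (IsConn.on (h _).conn _)).mono (subset_univ _))
    (isOpen_lt (by fun_prop) continuous_const) fun a w k => nC_eq h hl k a⟩) hβ.adm.ok,
    contMDiff_const, fun _ => map_zero _, .inl rfl⟩

theorem nC_red : RedOn D.Z (nC W l).m (nC W l).W univ fun z => η z.1 :=
  red_loc fun z _ => ⟨{z}, rfl, red_W ((red_cm (gRel_ts D l (bb l z.2)).fr (mapsTo_univ _ _)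
    (h _).red).mono (subset_univ _)) (by rintro a _ rfl; rfl)⟩

theorem nC_Fg (fl : ∀ z, (cy β).m.Fg D.Z (cy β).W z = 0) {z : Y.M × ℝ} (hz : z.2 ∈ Icc R (l - R)) :
    ‖(nC W l).m.Fg D.Z (nC W l).W z‖ ^ 2 ≤ gw γ R l z.2 := by
  have e : (nC W l).m.Fg D.Z (nC W l).W z = (cy β).m.Fg D.Z (W (bb l z.2)) (ts l (bb l z.2) z) :=
    (Loc66.Fg_congr (nC_ev h hl)).trans ((gRel_ts D l _).fr.Fg (m := (cy β).m) trivial _)
  rw [e]
  generalize bb l z.2 = b
  by_cases k : R + 1 < pm (!b) * (ts l b z).2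
  · rw [Loc66.Fg_congr (V := (cy β).W) fun a => (ContinuousAt.eventually_lt
      (g := fun w : Y.M × ℝ => pm (!b) * w.2) continuousAt_const (by fun_prop) k).mono
      fun w k => (h b).far a w k.le, fl, norm_zero, zero_pow two_ne_zero]
    exact gw_nonneg _ _ _ _
  have k1 : ts l b z ∈ dp Y.M b (Ici R) := by
    cases b <;> simp [dp, ts, pm] <;> linarith [hz.1, hz.2]
  refine (pow_le_pow_left₀ (norm_nonneg _) ((h b).sml _ k1) 2).trans ?_
  cases b <;> simp only [dp, ts, pm, Bool.not_false, Bool.not_true, if_true, Bool.false_eq_true,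
    if_false, cond_true, cond_false, not_lt] at k
  · rw [gw, indicator_of_mem (show z.2 ∈ Icc R (R + 1) from ⟨hz.1, by linarith⟩)]
    exact le_add_of_nonneg_right (indicator_nonneg (fun _ _ => sq_nonneg _) _)
  · rw [gw, indicator_of_mem (show z.2 ∈ Icc (l - R - 1) (l - R) from ⟨by linarith, hz.2⟩)]
    exact le_add_of_nonneg_left (indicator_nonneg (fun _ _ => sq_nonneg _) _)

end neck

variable {Z Z' : Mf 4} {ι : Type} [Fintype ι] {Y : ι → Mf 3} [∀ a, CompactSpace (Y a).M]
  {D : ∀ a, YD (Y a).I (Y a).M κ lam} {B : Base Z.M (Option κ) lam} {G : Geo Z.I Z.M (Option κ) lam}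
  {K : ∀ a, Bool → Nk (D a) B G} {φ : Z.M → Z'.M} {S : ι → Set Z.M}

theorem O0_open (R : ℝ) : IsOpen (O0 K R) := by
  simp only [O0, ofPred_forall]
  exact isOpen_iInter_of_finite fun a => isOpen_iInter_of_finite fun b =>
    isOpen_lt (continuous_const.mul (K a b).cont) continuous_const

theorem O0_tail {f : Z.M → ℝ} {P : Set Z.M} (hP : MeasurableSet P) (i : IntegrableOn f P G.F.μ) :
    Tendsto (fun R => ∫ z in P \ O0 K R, f z ∂G.F.μ) atTop (𝓝 0) := by
  have := tendsto_setIntegral_of_antitone (μ := G.F.μ) (f := f) (s := fun R => P \ O0 K R)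
    (fun R => hP.diff (O0_open R).measurableSet)
    (fun R R' e => sdiff_subset_sdiff_right fun z hz a b => (hz a b).trans_le e)
    ⟨0, i.mono_set sdiff_subset⟩
  rwa [eq_empty_of_forall_notMem (s := ⋂ R, P \ O0 K R) fun z hz => ?_, setIntegral_empty] at this
  obtain ⟨R, hR⟩ := (eventually_all.2 fun a => eventually_all.2 fun b =>
    eventually_gt_atTop (pm (!b) * (K a b).tm z)).exists
  exact (mem_iInter.1 hz R).2 hR

theorem Fx.sign (F : Fx K φ S) [∀ a, Nonempty (Y a).M] {e : ι → Bool → ℝ} (he : ∀ a b, e a b * e a b = 1) :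
    ∃ (s : Z.M → ℝ) (σ : ι → ℝ), (∀ z, s =ᶠ[𝓝 z] fun _ => s z) ∧ (∀ z, s z * s z = 1) ∧
      (∀ a, σ a * σ a = 1) ∧ ∀ a b, ∀ z ∈ (K a b).ψ.target, s z * e a b = σ a := by
  classical
  let f : ι → Z.M → ℝ := fun a z => if z ∈ S a then e a false * e a true else 1
  have f2 : ∀ z, (∏ a, f a z) * ∏ a, f a z = 1 := fun z => by
    rw [← Finset.prod_mul_distrib]
    refine Finset.prod_eq_one fun a _ => ?_
    simp only [f]
    split_ifs
    · rw [mul_mul_mul_comm, he, he, one_mul]
    · exact one_mul _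
  have pt : ∀ a, (K a true).ψ (Classical.arbitrary _, -1) ∈ (K a true).ψ.target := fun a =>
    (K a true).ψ.map_source ((K a true).mem_src.2 (by rw [F.J]; simp [pm]))
  refine ⟨fun z => ∏ a, f a z, fun a => (∏ a', f a' ((K a true).ψ (Classical.arbitrary _, -1))) * e a true,
    fun z => (eventually_all.2 fun a => ?_ : ∀ᶠ w in 𝓝 z, ∀ a, f a w = f a z).mono fun w k => by
      simp only [k], f2, fun a => by rw [mul_mul_mul_comm, f2, he, one_mul], fun a b z hz => ?_⟩
  · by_cases k : z ∈ S a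
    · exact ((F.cl a).2.eventually_mem k).mono fun w k' => by simp only [f, k, k']
    · exact ((F.cl a).1.isOpen_compl.eventually_mem k).mono fun w k' => by
        simp only [f, k, show w ∉ S a from k']
  · dsimp only
    rw [← Finset.mul_prod_erase _ _ (Finset.mem_univ a), ← Finset.mul_prod_erase _ _ (Finset.mem_univ a),
      Finset.prod_congr rfl fun a' k => show f a' z = f a' ((K a true).ψ (Classical.arbitrary _, -1)) by
        simp only [f, F.ot a a' (Finset.ne_of_mem_erase k).symm b true z hz _ (pt a)]]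
    simp only [f, F.sd a b z hz, F.sd a true _ (pt a)]
    cases b
    · simp only [if_true, Bool.true_eq_false, if_false]
      linear_combination (e a true * ∏ x ∈ Finset.univ.erase a, _) * he a false
    · rfl

end Crest.Agent.X212.Brk99
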