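import Crest.Agent.X212.Brk99.Defs
import Crest.Agent.X212.Glc56.Ep
import Crest.Agent.X212.Loc66.Paste
import Crest.Agent.X212.Nka63.B
import Crest.Agent.X212.Mp86.Bd

/-!
# Row 212, AB-BRK (helper99): local calculus of reductions, star covers
-/

set_option autoImplicit false
set_option linter.unusedSectionVars false
noncomputable section
open scoped Manifold ContDiff Topology InnerProductSpace
open MeasureTheory Function Filter Set

namespace Crest.Agent.X212.Brk99
open An Pj41 Tmp64 Sob92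
open Abel74 (RedOn)
open Loc8 (Rd)
open Eqv71 (cj Itw sa_cj)
open Wz78 (SA nab nab_congr)

variable {E : Type} [NormedAddCommGroup E] [NormedSpace ℝ E] [FiniteDimensional ℝ E]
  [MeasurableSpace E] [BorelSpace E]
  {HM : Type} [TopologicalSpace HM] {I : ModelWithCorners ℝ E HM} [I.Boundaryless]
  {M : Type} [TopologicalSpace M] [ChartedSpace HM M] [IsManifold I ∞ M]
  [MeasurableSpace M] [BorelSpace M] [SecondCountableTopology M] [T2Space M]
  {E' : Type} [NormedAddCommGroup E'] [NormedSpace ℝ E'] [FiniteDimensional ℝ E']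
  [MeasurableSpace E'] [BorelSpace E']
  {HM' : Type} [TopologicalSpace HM'] {I' : ModelWithCorners ℝ E' HM'} [I'.Boundaryless]
  {M' : Type} [TopologicalSpace M'] [ChartedSpace HM' M'] [IsManifold I' ∞ M']
  [MeasurableSpace M'] [BorelSpace M'] [SecondCountableTopology M'] [T2Space M']
  {ι lam : Type} [Fintype ι] [Fintype lam] {B : Base M ι lam} {G : Geo I M ι lam}
  {B' : Base M' ι lam} {G' : Geo I' M' ι lam} {F : Fr I M ι} {F' : Fr I' M' ι}
  {m m' : Md M ι lam} {W V : m.Cn} {W' : m'.Cn} {O : Set M} {O' : Set M'} {ξ η : M → m.A}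
  {u : M → CL m.V m'.V}

theorem red_congr (R : RedOn F m W O ξ) (e : ∀ x ∈ O, η =ᶠ[𝓝 x] ξ) : RedOn F m W O η :=
  ⟨fun x hx => (R.sm x hx).congr_of_eventuallyEq (e x hx),
    fun x hx => (e x hx).eq_of_nhds ▸ R.mem x hx, fun x hx => (e x hx).eq_of_nhds ▸ R.sq x hx,
    fun x hx a => by rw [nab_congr a (e x hx), R.par x hx]⟩

theorem red_W (R : RedOn F m W O ξ) (e : ∀ a, ∀ x ∈ O, V a x = W a x) : RedOn F m V O ξ :=
  ⟨R.sm, R.mem, R.sq, fun x hx a => by
    have := R.par x hx a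
    simp only [nab, Md.adW, e a x hx] at this ⊢
    exact this⟩

theorem red_loc (h : ∀ x ∈ O, ∃ O₁, x ∈ O₁ ∧ RedOn F m W O₁ ξ) : RedOn F m W O ξ := by
  choose! o ho h using h
  exact ⟨fun x hx => (h x hx).sm x (ho x hx), fun x hx => (h x hx).mem x (ho x hx),
    fun x hx => (h x hx).sq x (ho x hx), fun x hx => (h x hx).par x (ho x hx)⟩

theorem red_sm (R : RedOn F m W O ξ) {s : ℝ} (h : s * s = 1) : RedOn F m W O fun x => s • ξ x :=
  ⟨fun x hx => SA.clm (s • ContinuousLinearMap.id ℝ m.A) (R.sm x hx),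
    fun x hx => Submodule.smul_mem _ _ (R.mem x hx),
    fun x hx => by rw [map_smul, smul_mul_smul_comm, h, one_smul, R.sq x hx], fun x hx a => by
      have := R.par x hx a
      have k : dv I (F.e a) (fun x => s • ξ x) x = s • dv I (F.e a) ξ x :=
        dv_clm (s • ContinuousLinearMap.id ℝ m.A) (R.sm x hx).md
      simp only [nab] at this ⊢
      rw [k, map_smul, ← smul_add, this, smul_zero]⟩

theorem red_smul (R : RedOn F m W O ξ) {s : M → ℝ} (h1 : ∀ x, s =ᶠ[𝓝 x] fun _ => s x)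
    (h2 : ∀ x, s x * s x = 1) : RedOn F m W O fun x => s x • ξ x :=
  red_loc fun x hx => ⟨{x}, rfl, red_congr (red_sm (R.mono (singleton_subset_iff.2 hx)) (h2 x)) (by
    rintro _ rfl; exact (h1 _).mono fun y hy => by simp only [hy])⟩

theorem red_iso (R : RedOn F m W O ξ) (h : Iso0 I m m' O u) (hm : OKOn I B m O) (hm' : OKOn I B m' O)
    (k : ∀ a, ∀ x ∈ O, Skw (W a x)) (k' : ∀ a, ∀ x ∈ O, Skw (W' a x)) (hp : Par0 F W W' O u) :
    RedOn F m' W' O fun x => cj (u x) (ξ x) where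
  sm x hx := SA.app (sa_cj (h.su x hx)) (R.sm x hx)
  mem x hx := Loc66.cj_mem h hm hm' hx (R.mem x hx)
  sq x hx := by
    ext1 w
    have h1 : ∀ a, opL (ξ x) (opL (ξ x) a) = -m.p x a := fun a => congrArg (· a) (R.sq x hx)
    have h2 : ∀ a, u x (m.p x a) = u x a := fun a => congrArg (· a) (h.iso x hx).idem
    have h3 : u x (trn (u x) w) = m'.p x w := by
      rw [← ad_trn]; exact congrArg (· w) (h.iso x hx).tgt
    have h4 : ∀ a, trn (u x) (u x a) = m.p x a := fun a => by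
      rw [← ad_trn]; exact congrArg (· a) (h.iso x hx).src
    have h5 : ∀ a, m.p x (opL (ξ x) a) = opL (ξ x) a := fun a => congrArg (· a) (R.mem x hx).2.1
    simp only [mul_apply_eq_comp, Eqv71.opL_cj, ContinuousLinearMap.comp_apply, h4, h5, h1, map_neg,
      h2, h3, neg_apply]
  par x hx a := by
    have i : Itw I F.e W W' u x := fun a => sub_eq_zero.1 (hp x hx a)
    refine ((i.cj (h.su x hx) (fun a => k a x hx) fun a => k' a x hx).nab
      (sa_cj (h.su x hx)).md (R.sm x hx).md a).trans ?_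
    exact (congrArg _ (R.par x hx a)).trans (map_zero _)

theorem red_cm {ψ : M' → M} (g : FRel F' F ψ O') (hO : MapsTo ψ O' O) (R : RedOn F m W O ξ) :
    RedOn F' (cmM ψ m) (fun a x => W a (ψ x)) O' fun x => ξ (ψ x) :=
  ⟨fun _ hx => g.sm hx (R.sm _ (hO hx)), fun _ hx => R.mem _ (hO hx), fun _ hx => R.sq _ (hO hx),
    fun _ hx a => (g.nab hx (A' := m.adW W) a rfl (.of_forall fun _ => rfl)).trans (R.par _ (hO hx) a)⟩

theorem rd_patch {J : Type} {U : J → Set M} {f : J → M → m.A} (op : ∀ i, IsOpen (U i))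
    (R : ∀ i, RedOn F m W (U i) (f i)) (cp : ∀ i j, ∀ x ∈ U i, x ∈ U j → f i x = f j x)
    (hO : IsOpen O) (cov : ∀ x ∈ O, ∃ i, x ∈ U i) : ∃ ξ, Rd F m W O ξ := by
  classical
  choose c hc using cov
  refine ⟨fun x => if h : x ∈ O then f (c x h) x else 0, red_loc fun x hx => ⟨{x}, rfl,
    red_congr ((R _).mono (singleton_subset_iff.2 (hc x hx))) ?_⟩, hO, fun x hx => dif_neg hx⟩
  rintro _ rfl
  filter_upwards [hO.mem_nhds hx, (op _).mem_nhds (hc _ hx)] with y h1 h2
  rw [dif_pos h1, cp _ _ y (hc y h1) h2]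

theorem eq0_loc {c c' : Cfg M ι lam 0} {t : M → CL c.m.V c'.m.V}
    (h : ∀ x ∈ O, ∃ O₁ t₁, x ∈ O₁ ∧ Eq0 F c c' O₁ t₁ ∧ t =ᶠ[𝓝 x] t₁) : Eq0 F c c' O t := by
  choose! o s ho h e using h
  have e' := fun x hx => (e x hx).eq_of_nhds
  exact ⟨⟨fun x hx => ((h x hx).iso.su x (ho x hx)).congr_of_eventuallyEq (e x hx),
    fun x hx => e' x hx ▸ (h x hx).iso.iso x (ho x hx), fun x hx => e' x hx ▸ (h x hx).iso.J x (ho x hx),
    fun x hx => e' x hx ▸ (h x hx).iso.ρ x (ho x hx), fun x hx => e' x hx ▸ (h x hx).iso.j x (ho x hx)⟩,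
    fun x hx a => by
      rw [Pre.D_def, dv_congr (e x hx), e' x hx]; exact (h x hx).par x (ho x hx) a,
    fun x hx => e' x hx ▸ (h x hx).Φ x (ho x hx), Subsingleton.elim _ _⟩

/-- gluing along a star -/
theorem star {K : Type} [Fintype K] {O₀ : Set M} {Oi : K → Set M} {c₀ : Cfg M ι lam 0}
    {ci : K → Cfg M ι lam 0} {t : ∀ i, M → CL c₀.m.V (ci i).m.V} (hG : G.OK B) (o₀ : IsOpen O₀)
    (op : ∀ i, IsOpen (Oi i)) (cov : ∀ x, x ∈ O₀ ∨ ∃ i, x ∈ Oi i)
    (dj : Pairwise fun i j => Disjoint (Oi i) (Oi j)) (h₀ : AdmOn c₀ B G O₀)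
    (h : ∀ i, AdmOn (ci i) B G (Oi i)) (e : ∀ i, Eq0 G.F c₀ (ci i) (O₀ ∩ Oi i) (t i)) :
    ∃ (c : Cfg M ι lam 0) (a₀ : M → CL c₀.m.V c.m.V) (a : ∀ i, M → CL (ci i).m.V c.m.V),
      c.Adm B G ∧ Eq0 G.F c₀ c O₀ a₀ ∧ (∀ i, Eq0 G.F (ci i) c (Oi i) (a i)) ∧
      ∀ i, ∀ x ∈ O₀ ∩ Oi i, a i x ∘L t i x = a₀ x := by
  classical
  have := Int54.sigmaCompact (I := I) M
  let O : Option K → Set M := fun i => i.elim O₀ Oi
  let c : Option K → Cfg M ι lam 0 := fun i => i.elim c₀ ci
  let u : ∀ i j, M → CL (c j).m.V (c i).m.V := fun i j => match i, j with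
    | none, none => c₀.m.p
    | some i, none => t i
    | none, some j => fun x => ad (t j x)
    | some i, some j => if k : j = i then k ▸ (ci j).m.p else 0
  have uu : ∀ i, u (some i) (some i) = (ci i).m.p := fun i => dif_pos rfl
  have eq : ∀ {i j x}, x ∈ Oi i → x ∈ Oi j → j = i := fun h1 h2 =>
    by_contra fun k => disjoint_left.1 (dj k) h2 h1
  have s := fun i => (e i).iso.iso
  obtain ⟨y, a, k1, k2, k3⟩ := Glc56.glueK (Oi := O) (ci := c) (u := u) hG
    (by rintro (_ | i); exacts [o₀, op i])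
    (fun x => (cov x).elim (fun k => ⟨none, k⟩) fun ⟨i, k⟩ => ⟨some i, k⟩)
    (by rintro (_ | i); exacts [h₀, h i])
    (by
      rintro (_ | i) (_ | j)
      · exact (Eq0.refl h₀).mono inter_subset_left
      · exact (e j).symm (h₀.mono inter_subset_left) ((h j).mono inter_subset_right)
      · exact (e i).mono fun x hx => ⟨hx.2, hx.1⟩
      · by_cases k : j = i
        · subst k; rw [uu]; exact (Eq0.refl (h j)).mono inter_subset_left
        · exact Glc56.eq0_empty (eq_empty_of_forall_notMem fun x hx => k (eq hx.1 hx.2)))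
    (by
      rintro (_ | i) (_ | j) (_ | l) x h1 h2 h3
      · exact h₀.ok.pidem x h1
      · exact (s l x ⟨h1, h3⟩).symm.left
      · exact (s j x ⟨h1, h2⟩).src
      · obtain rfl := eq h2 h3
        rw [uu]; exact (s l x ⟨h1, h2⟩).symm.idem
      · exact (s i x ⟨h2, h1⟩).idem
      · obtain rfl := eq h1 h3
        rw [uu]; exact (s l x ⟨h2, h1⟩).tgt
      · obtain rfl := eq h1 h2
        rw [uu]; exact (s j x ⟨h3, h1⟩).left
      · obtain rfl := eq h1 h2
        obtain rfl := eq h2 h3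
        rw [uu]; exact (h l).ok.pidem x h1)
  exact ⟨y, a none, fun i => a (some i), k1, k2 none, fun i => k2 (some i),
    fun i x hx => k3 (some i) none x hx.2 hx.1⟩

variable {φ : OpenPartialHomeomorph M M'}

theorem gRel_symm (g : GRel B G B' G' φ φ.source) (hG : G.OK B) (hG' : G'.OK B') :
    GRel B' G' B G φ.symm φ.target := by
  have i := fun x hx => φ.right_inv (x := x) hx
  have s := fun x hx => φ.map_target (x := x) hx
  exact ⟨fRel_of_iso (iso_symm (g.fr.iso hG.vol hG'.vol)),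
    fun a b x hx => by rw [g.P a b _ (s x hx), i x hx],
    fun a b c d x hx => by rw [g.o a b c d _ (s x hx), i x hx],
    fun x hx => by rw [g.l _ (s x hx), i x hx], g.il.symm, fun a x hx => by rw [g.a a _ (s x hx), i x hx]⟩

theorem Fg_cm {ψ : M' → M} (g : FRel F' F ψ O') {x : M'} (hx : x ∈ O') (c : Cfg M ι lam 0) :
    ‖(cmC ψ c).m.Fg F' (cmC ψ c).W x‖ = ‖c.m.Fg F c.W (ψ x)‖ := congrArg _ (g.Fg hx c.W)

theorem kd_cm {ψ : M' → M} (g : GRel B' G' B G ψ O') {x : M'} (hx : x ∈ O') (c : Cfg M ι lam 0) :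
    (cmC ψ c).m.kd B' G'.F (cmC ψ c).W x = c.m.kd B G.F c.W (ψ x) := by
  simp only [Md.kd, g.fr.Fg hx, show B'.st x = B.st (ψ x) from
    funext fun s => funext fun t => by simp only [Base.st, g.o _ _ _ _ x hx]]

theorem abs_kd (hB : B.OK I) (hG : G.OK B) (C : m.IsConn B G W) (x : M) :
    |m.kd B G.F W x| ≤ ‖m.Fg G.F W x‖ ^ 2 := by
  have h1 := Wz78.norm_Fg_sq (x := x) hG C hB
  have h2 := pow_le_pow_left₀ (norm_nonneg _) (Mp86.norm_p2 hB m x (m.Fg G.F W x)) 2
  have h3 := sq_nonneg ‖m.p2 B x (m.Fg G.F W x)‖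
  have h4 : 1 ≤ 128 * Real.pi ^ 2 := by nlinarith [Real.pi_gt_three]
  rw [abs_le]
  constructor <;> nlinarith

/-- integrals over matched parts -/
theorem int_close {P : Pre I M ι} {P' : Pre I' M' ι} (h : An.Iso P P' φ) {T : Set M} {T' : Set M'}
    (hT : MeasurableSet T) (hT' : MeasurableSet T') (e : ∀ x ∈ φ.source, φ x ∈ T' ↔ x ∈ T)
    {f g : M → ℝ} {f' g' : M' → ℝ} (ef : ∀ x ∈ φ.source, f' (φ x) = f x) (i : IntegrableOn f T P.μ)
    (i' : IntegrableOn f' T' P'.μ) (j : IntegrableOn g T P.μ) (j' : IntegrableOn g' T' P'.μ)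
    (b : ∀ x, |f x| ≤ g x) (b' : ∀ x, |f' x| ≤ g' x) :
    |∫ x in T', f' x ∂P'.μ - ∫ x in T, f x ∂P.μ| ≤
      ∫ x in T' \ φ.target, g' x ∂P'.μ + ∫ x in T \ φ.source, g x ∂P.μ := by
  have o := φ.open_source.measurableSet
  have o' := φ.open_target.measurableSet
  have k := Nka63.setIntegral_comp h (T'.indicator f')
  rw [setIntegral_indicator hT', setIntegral_congr_fun o (g := T.indicator f) fun x hx => by
    by_cases k : x ∈ T
    · simp only [indicator_of_mem k, indicator_of_mem ((e x hx).2 k), ef x hx]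
    · simp only [indicator_of_notMem k, indicator_of_notMem fun k' => k ((e x hx).1 k')],
    setIntegral_indicator hT, inter_comm, inter_comm φ.target] at k
  rw [← integral_inter_add_sdiff o' i', ← integral_inter_add_sdiff o i, k, add_sub_add_left_eq_sub]
  exact (abs_sub _ _).trans (add_le_add
    (abs_integral_le_integral_abs.trans (setIntegral_mono (i'.mono_set sdiff_subset).abs
      (j'.mono_set sdiff_subset) b'))
    (abs_integral_le_integral_abs.trans (setIntegral_mono (i.mono_set sdiff_subset).abs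
      (j.mono_set sdiff_subset) b)))

end Crest.Agent.X212.Brk99
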